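import Mathlib
import Vale.Agent.Lib.P174.Levin

namespace Vale.Agent.Results.P174.PositiveEquations

open Vale.Agent.Lib.P174

universe u

/-- One equation in one unknown with positive exponents is solvable over every group.
For every group `G`, every `n ≥ 1`, all coefficients `g 0, …, g (n-1)` in `G` and all exponents
`e 0, …, e (n-1) ≥ 1`, there are a group `H` (in the same universe), an injective homomorphism
`φ : G → H` and an element `x` of `H` with
`φ (g 0) * x ^ e 0 * φ (g 1) * x ^ e 1 * ⋯ * φ (g (n-1)) * x ^ e (n-1) = 1`. -/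
theorem result {G : Type u} [Group G] (n : ℕ) (hn : 0 < n) (g : Fin n → G) (e : Fin n → ℕ)
    (he : ∀ i, 0 < e i) :
    ∃ (H : Type u) (_ : Group H) (φ : G →* H) (x : H),
      Function.Injective φ ∧
        (List.ofFn (fun i : Fin n => φ (g i) * x ^ e i)).prod = 1 := by
  obtain ⟨L, hLdef⟩ : ∃ L : List G,
      L = (List.ofFn (fun i : Fin n => g i :: List.replicate (e i - 1) 1)).flatten := ⟨_, rfl⟩
  have hL : L ≠ [] := by
    intro h
    have h0 := congrArg List.length h
    rw [hLdef, List.length_flatten, List.map_ofFn] at h0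
    have hmem : (1 + (e ⟨0, hn⟩ - 1)) ∈
        List.ofFn ((List.length) ∘ fun i : Fin n => g i :: List.replicate (e i - 1) 1) := by
      rw [List.mem_ofFn]
      exact ⟨⟨0, hn⟩, by simp [Nat.add_comm]⟩
    have := List.single_le_sum (by intro x _; exact Nat.zero_le x) _ hmem
    simp at h0
    omega
  obtain ⟨N, x, hx⟩ : ∃ (N : ℕ) (x : Equiv.Perm (ZMod N × G)),
      (L.map (fun a => lmulHom N a * x)).prod = 1 := ⟨L.length, levin_list L hL⟩
  subst hLdef
  refine ⟨Equiv.Perm (ZMod N × G), inferInstance, lmulHom N, x, lmulHom_injective N, ?_⟩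
  rw [← hx]
  rw [List.map_flatten, List.prod_flatten, List.map_map, List.map_ofFn]
  congr 1
  apply congrArg
  funext i
  simp only [Function.comp_apply, List.map_cons, List.map_replicate, List.prod_cons,
    List.prod_replicate, map_one, one_mul]
  rw [mul_assoc, ← pow_succ']
  congr 2
  have := he i
  omega

end Vale.Agent.Results.P174.PositiveEquations
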